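import Mathlib
import Vale.Agent.H74.CocompactCore

/-!
# Cocompact groups of biholomorphisms of bounded domains are not virtually nilpotent

Support file for problem P274. From `eq_id_of_finite_conj` we deduce that an element of `Γ`
commuting with a finite-index subgroup is trivial, and hence that a bounded domain of positive
dimension has no cocompact virtually nilpotent group of biholomorphisms.
-/

open Metric Set Filter Topology

namespace Vale.Agent.H74

variable {E : Type*} [NormedAddCommGroup E] [NormedSpace ℂ E] [FiniteDimensional ℂ E]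

/-- In the setting of `eq_id_of_finite_conj`, an element of `Γ` commuting with a subgroup of
finite index is trivial. -/
lemma eq_one_of_commute_finiteIndex [StrictConvexSpace ℝ E] {U : Set E} (hUo : IsOpen U)
    (hUc : IsConnected U) (hUb : Bornology.IsBounded U)
    (Γ : Subgroup (Equiv.Perm U)) (hΓ : ∀ γ ∈ Γ, IsHolomorphicSelfMap U γ)
    [CompactSpace (MulAction.orbitRel.Quotient Γ U)]
    (H : Subgroup Γ) [H.FiniteIndex] (z : Γ) (hz : ∀ h ∈ H, h * z = z * h) : z = 1 := by
  have hfin : {ψ : U → U | ∃ γ ∈ Γ, ψ = ⇑γ⁻¹ ∘ ⇑(z : Equiv.Perm U) ∘ ⇑γ}.Finite := by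
    apply (Set.finite_range
      (fun q : Γ ⧸ H => (⇑((q.out * z * q.out⁻¹ : Γ) : Equiv.Perm U) : U → U))).subset
    rintro ψ ⟨γ, hγ, rfl⟩
    set g : Γ := ⟨γ, hγ⟩ with hg
    set q : Γ ⧸ H := QuotientGroup.mk g⁻¹ with hq
    refine ⟨q, ?_⟩
    have hmem : q.out⁻¹ * g⁻¹ ∈ H := by
      rw [← QuotientGroup.eq, QuotientGroup.out_eq']
    set h : Γ := q.out⁻¹ * g⁻¹ with hh
    have h1 : g⁻¹ = q.out * h := by rw [hh]; group
    have h2 : g⁻¹ * z * g = q.out * z * q.out⁻¹ := by
      have h3 : g = h⁻¹ * q.out⁻¹ := by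
        rw [← inv_inv g, h1]; group
      rw [h1, h3]
      have := hz h hmem
      calc q.out * h * z * (h⁻¹ * q.out⁻¹) = q.out * (h * z) * h⁻¹ * q.out⁻¹ := by group
        _ = q.out * (z * h) * h⁻¹ * q.out⁻¹ := by rw [this]
        _ = q.out * z * q.out⁻¹ := by group
    simp only
    rw [← h2]
    rfl
  have hid := eq_id_of_finite_conj hUo hUc hUb Γ hΓ (⇑(z : Equiv.Perm U)) (hΓ _ z.2) hfin
  apply Subtype.ext
  apply Equiv.ext
  intro x
  simp [hid]

/-- A bounded domain of positive dimension admits no cocompact action by a virtually nilpotent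
group of biholomorphisms. -/
theorem not_virtuallyNilpotent [StrictConvexSpace ℝ E] [Nontrivial E] {U : Set E}
    (hUo : IsOpen U) (hUc : IsConnected U) (hUb : Bornology.IsBounded U)
    (Γ : Subgroup (Equiv.Perm U)) (hΓ : ∀ γ ∈ Γ, IsHolomorphicSelfMap U γ)
    [CompactSpace (MulAction.orbitRel.Quotient Γ U)]
    (hvn : Group.IsVirtuallyNilpotent Γ) : False := by
  obtain ⟨H, hHnil, hHfin⟩ := hvn
  -- `H` is trivial
  have hHtriv : Subsingleton H := by
    by_contra hns
    rw [not_subsingleton_iff_nontrivial] at hns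
    have hcne := Group.IsNilpotent.center_ne_bot (G := H)
    obtain ⟨c, hc1⟩ := (Subgroup.ne_bot_iff_exists_ne_one).mp hcne
    have hz : ∀ h ∈ H, h * ((c : H) : Γ) = ((c : H) : Γ) * h := by
      intro h hh
      have hcomm := Subgroup.mem_center_iff.mp c.2 ⟨h, hh⟩
      have := congrArg (Subtype.val : H → Γ) hcomm
      simpa using this
    have h1 := eq_one_of_commute_finiteIndex hUo hUc hUb Γ hΓ H ((c : H) : Γ) hz
    apply hc1
    apply Subtype.ext
    apply Subtype.ext
    simpa using congrArg (Subtype.val : Γ → Equiv.Perm U) h1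
  -- hence `Γ` is trivial
  have hΓtriv : ∀ z : Γ, z = 1 := by
    intro z
    apply eq_one_of_commute_finiteIndex hUo hUc hUb Γ hΓ H z
    intro h hh
    have : (⟨h, hh⟩ : H) = 1 := Subsingleton.elim _ _
    have h1 : h = 1 := by simpa using congrArg (Subtype.val : H → Γ) this
    rw [h1]; simp
  -- hence `U` is compact
  obtain ⟨K, hK, hKU, hcov⟩ :=
    exists_compact_fundamental hUo Γ (fun γ hγ => (hΓ γ hγ).continuous)
  have hUK : U = K := by
    apply Subset.antisymm _ hKU
    intro x hx
    obtain ⟨γ, hγ, k, hk, hγk⟩ := hcov ⟨x, hx⟩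
    have h1 : γ = 1 := by
      simpa using congrArg (Subtype.val : Γ → Equiv.Perm U) (hΓtriv ⟨γ, hγ⟩)
    rw [h1] at hγk
    have : (k : E) = x := by simpa using congrArg (Subtype.val : U → E) hγk
    rw [← this]; exact hk
  have hUcpt : IsCompact U := hUK ▸ hK
  have huniv : U = univ := IsClopen.eq_univ ⟨hUcpt.isClosed, hUo⟩ hUc.nonempty
  rw [huniv] at hUcpt
  have : NoncompactSpace E := NormedSpace.noncompactSpace ℂ E
  exact noncompact_univ E hUcpt

end Vale.Agent.H74
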