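import Mathlib

/-!
# Fourier counting lemma over `ZMod Q` (sub-lemma FCOUNT for P012)

If the nontrivial Fourier coefficients of four exponential sums over a finite set `P` have total
size smaller than `|P| ^ 4`, then every residue `r` is a sum `φ 0 x₀ + φ 1 x₁ + φ 2 x₂ + φ 3 x₃`
with all `xᵢ ∈ P`.
-/

open Finset

namespace Vale.Agent.H74

theorem exists_rep_of_sum_lt (Q : ℕ) [NeZero Q] {ι : Type*} (P : Finset ι)
    (φ : Fin 4 → ι → ZMod Q) (r : ZMod Q)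
    (hlt : ∑ h ∈ (Finset.univ.erase (0 : ZMod Q)),
      ∏ i : Fin 4, ‖∑ x ∈ P, (ZMod.stdAddChar (h * φ i x) : ℂ)‖ < (P.card : ℝ) ^ 4) :
    ∃ x : Fin 4 → ι, (∀ i, x i ∈ P) ∧ ∑ i, φ i (x i) = r := by
  classical
  by_contra hcon
  push Not at hcon
  set ψ : AddChar (ZMod Q) ℂ := ZMod.stdAddChar (N := Q) with hψ
  have hprim : ψ.IsPrimitive := ZMod.isPrimitive_stdAddChar Q
  have hsum : ∀ (s : Finset (Fin 4)) (f : Fin 4 → ZMod Q),
      ψ (∑ i ∈ s, f i) = ∏ i ∈ s, ψ (f i) := by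
    intro s f
    induction s using Finset.induction_on with
    | empty => simp
    | insert a s ha ih =>
      rw [Finset.sum_insert ha, Finset.prod_insert ha, AddChar.map_add_eq_mul, ih]
  -- the product of the four sums as a sum over 4-tuples
  have hS : ∀ h : ZMod Q, ∏ i : Fin 4, ∑ x ∈ P, ψ (h * φ i x)
      = ∑ x ∈ Fintype.piFinset (fun _ : Fin 4 => P), ψ (h * ∑ i, φ i (x i)) := by
    intro h
    rw [Finset.prod_univ_sum]
    refine Finset.sum_congr rfl fun x _ => ?_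
    rw [Finset.mul_sum, hsum]
  -- the total sum vanishes
  have hT : ∑ h : ZMod Q, ψ (-(h * r)) * ∏ i : Fin 4, ∑ x ∈ P, ψ (h * φ i x) = 0 := by
    have e1 : ∀ h : ZMod Q, ψ (-(h * r)) * ∏ i : Fin 4, ∑ x ∈ P, ψ (h * φ i x)
        = ∑ x ∈ Fintype.piFinset (fun _ : Fin 4 => P), ψ (h * (∑ i, φ i (x i) - r)) := by
      intro h
      rw [hS, Finset.mul_sum]
      refine Finset.sum_congr rfl fun x _ => ?_
      rw [← AddChar.map_add_eq_mul]
      congr 1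
      ring
    simp_rw [e1]
    rw [Finset.sum_comm]
    refine Finset.sum_eq_zero fun x hx => ?_
    have hx' : ∀ i, x i ∈ P := fun i => (Fintype.mem_piFinset.1 hx) i
    have hne : ∑ i, φ i (x i) - r ≠ 0 := sub_ne_zero.2 (hcon x hx')
    rw [AddChar.sum_mulShift _ hprim, if_neg hne]
    exact Nat.cast_zero
  -- split off the term h = 0
  rw [← Finset.add_sum_erase Finset.univ _ (Finset.mem_univ (0 : ZMod Q))] at hT
  have h0 : ψ (-(0 * r)) * ∏ i : Fin 4, ∑ x ∈ P, ψ (0 * φ i x) = ((P.card : ℝ) ^ 4 : ℝ) := by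
    simp
  rw [h0] at hT
  have hnorm : (P.card : ℝ) ^ 4
      ≤ ∑ h ∈ (Finset.univ.erase (0 : ZMod Q)), ∏ i : Fin 4, ‖∑ x ∈ P, ψ (h * φ i x)‖ := by
    have e : (((P.card : ℝ) ^ 4 : ℝ) : ℂ)
        = -∑ h ∈ (Finset.univ.erase (0 : ZMod Q)),
            ψ (-(h * r)) * ∏ i : Fin 4, ∑ x ∈ P, ψ (h * φ i x) := by
      rw [eq_neg_iff_add_eq_zero]; exact hT
    have hpos : (0 : ℝ) ≤ (P.card : ℝ) ^ 4 := by positivity
    calc (P.card : ℝ) ^ 4 = ‖(((P.card : ℝ) ^ 4 : ℝ) : ℂ)‖ := by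
          rw [Complex.norm_real, Real.norm_of_nonneg hpos]
      _ = ‖∑ h ∈ (Finset.univ.erase (0 : ZMod Q)),
            ψ (-(h * r)) * ∏ i : Fin 4, ∑ x ∈ P, ψ (h * φ i x)‖ := by rw [e, norm_neg]
      _ ≤ ∑ h ∈ (Finset.univ.erase (0 : ZMod Q)),
            ‖ψ (-(h * r)) * ∏ i : Fin 4, ∑ x ∈ P, ψ (h * φ i x)‖ := norm_sum_le _ _
      _ = ∑ h ∈ (Finset.univ.erase (0 : ZMod Q)), ∏ i : Fin 4, ‖∑ x ∈ P, ψ (h * φ i x)‖ := by
          refine Finset.sum_congr rfl fun h _ => ?_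
          rw [norm_mul, norm_prod, AddChar.norm_apply, one_mul]
  exact absurd hlt (not_lt.2 hnorm)

end Vale.Agent.H74
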